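import Vale.Agent.P318.H794.Cart
import Vale.Agent.P318.H794.FinM
import Vale.Agent.P318.H724.Final

/-!
# The Goemans–Linial gap of Cartesian products

`phi`, `glValue`, `IsNegTypeSemimetric` and `cutCap` are defined in
`Vale.Agent.P318.H867.Defs`, and `prodCap` in `Vale.Agent.P318.H794.Cart`.
-/

open Finset

namespace Vale.Agent.Results.P318.CartesianProducts

open Vale.Agent.P318.H867 Vale.Agent.P318.H794

/-- The capacities `c` are preserved by an action, with at most `k` orbits, of a finite nilpotent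
group of class at most `κ + 1`, and `min (M, e, log |W|) ≤ L` for some bound `M` on the number of
neighbours, `e` the exponent of the abelianization. -/
def FewOrbits {W : Type} [Fintype W] [DecidableEq W] (κ k : ℕ) (L : ℝ) (c : W → W → ℝ) : Prop :=
  ∃ (G : Type) (_ : Group G) (_ : Fintype G) (_ : MulAction G W) (M : ℕ) (y : Fin k → W),
    Group.IsNilpotent G ∧ Group.nilpotencyClass G ≤ κ + 1 ∧
    (∀ (g : G) (u v : W), c (g • u) (g • v) = c u v) ∧
    (∀ v, ∃ (i : Fin k) (g : G), v = g • y i) ∧
    (∀ u, (univ.filter fun v => c u v ≠ 0).card ≤ M) ∧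
    min (M : ℝ) (min (Monoid.exponent (Abelianization G) : ℝ) (Real.log (Fintype.card W))) ≤ L

theorem small {W : Type} [Fintype W] [DecidableEq W] [Nontrivial W] {c : W → W → ℝ}
    (hc : ∀ u v, 0 ≤ c u v) (hs : ∀ u v, c u v = c v u) {s : ℕ} (h : Fintype.card W ≤ s) :
    phi c ≤ 8739 * (1 + (Nat.log 2 s : ℝ)) * glValue c := by
  have h1 : phi c ≤ 8739 * ((Nat.log 2 (Fintype.card W / 1) : ℝ) + 1) * glValue c := by
    refine Vale.Agent.P318.H724.phi_le_gl (by positivity) fun d hd hs' ht =>
      Vale.Agent.P318.H724.main hc hs le_rfl ∅ (by simp) (fun i _ S h1 h2 => ?_) hd hs' ht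
    by_contra hcon
    have : S = ∅ := by
      rw [← card_eq_zero]; omega
    rw [this, sum_empty, mul_zero] at h2
    linarith
  rw [Nat.div_one] at h1
  refine h1.trans (mul_le_mul_of_nonneg_right ?_ (gl_nonneg hc))
  have h2 : (Nat.log 2 (Fintype.card W) : ℝ) ≤ Nat.log 2 s := by
    exact_mod_cast Nat.log_mono_right h
  linarith

/-- Let `c` be the Cartesian product of the capacities `c i` on `V i`, `i` in a finite nonempty
set.  Then `|V| Φ(c)` and `|V| GL(c)` are the smallest of the values `|V i| Φ(c i)` and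
`|V i| GL(c i)`; the gap of the product is at most the largest gap of a factor; it is at most
`8739 (1 + log₂ s)` if every factor has at most `s` points; and it is bounded when every factor
has at most `s` points or a nilpotent symmetry group with few orbits. -/
theorem result (ι : Type) [Fintype ι] [DecidableEq ι] [Nonempty ι] (V : ι → Type)
    [∀ i, Fintype (V i)] [∀ i, DecidableEq (V i)] [∀ i, Nontrivial (V i)]
    (c : ∀ i, V i → V i → ℝ) (hnonneg : ∀ i a b, 0 ≤ c i a b)
    (hsymm : ∀ i a b, c i a b = c i b a) (_hdiag : ∀ i a, c i a a = 0) :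
    ((Fintype.card (∀ i, V i) : ℝ) * phi (prodCap c) =
      ⨅ i, (Fintype.card (V i) : ℝ) * phi (c i)) ∧
    ((Fintype.card (∀ i, V i) : ℝ) * glValue (prodCap c) =
      ⨅ i, (Fintype.card (V i) : ℝ) * glValue (c i)) ∧
    (∀ K : ℝ, (∀ i, phi (c i) ≤ K * glValue (c i)) →
      phi (prodCap c) ≤ K * glValue (prodCap c)) ∧
    (∀ s : ℕ, (∀ i, Fintype.card (V i) ≤ s) →
      phi (prodCap c) ≤ 8739 * (1 + (Nat.log 2 s : ℝ)) * glValue (prodCap c)) ∧
    (∀ (s κ k : ℕ) (L : ℝ), 0 ≤ L →
      (∀ i, Fintype.card (V i) ≤ s ∨ FewOrbits κ k L (c i)) →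
      phi (prodCap c) ≤ max (8739 * (1 + (Nat.log 2 s : ℝ)))
        (2000 * 4 ^ κ * k * (k + Real.log (1 + L))) * glValue (prodCap c)) := by
  obtain ⟨h1, h2⟩ := prod_formulas hnonneg hsymm
  refine ⟨h1, h2, fun K hK => gap_prod hnonneg hsymm hK,
    fun s hs => gap_prod hnonneg hsymm fun i => small (hnonneg i) (hsymm i) (hs i),
    fun s κ k L hL hV => gap_prod hnonneg hsymm fun i => ?_⟩
  have hg := gl_nonneg (hnonneg i)
  rcases hV i with h | ⟨G, _, _, _, M, y, hnil, hclass, hinv, hy, hM, hmin⟩
  · exact (small (hnonneg i) (hsymm i) h).trans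
      (mul_le_mul_of_nonneg_right (le_max_left _ _) hg)
  · refine (finalM (Subgroup.lowerCentralSeries_eq_bot_iff_nilpotencyClass_le.2 hclass)
      (hnonneg i) (hsymm i) hinv y hy hM).trans (mul_le_mul_of_nonneg_right ?_ hg)
    refine le_trans ?_ (le_max_right _ _)
    apply mul_le_mul_of_nonneg_left _ (by positivity)
    have hX : (0 : ℝ) ≤ min (M : ℝ)
        (min (Monoid.exponent (Abelianization G) : ℝ) (Real.log (Fintype.card (V i)))) :=
      le_min (by positivity) (le_min (by positivity)
        (Real.log_nonneg (by exact_mod_cast Fintype.card_pos)))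
    have h3 := Real.log_le_log (by linarith) (add_le_add_right hmin 1)
    linarith

end Vale.Agent.Results.P318.CartesianProducts
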