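import Vale.Agent.P318.H794.FinM

/-!
# The Goemans–Linial gap for capacities with a nilpotent symmetry group with few orbits

`phi`, `glValue`, `IsNegTypeSemimetric` and `cutCap` are defined in
`Vale.Agent.P318.H867.Defs`.
-/

open Finset

namespace Vale.Agent.Results.P318.NilpotentFewOrbits

open Vale.Agent.P318.H867

/-- Let a finite nilpotent group `G` of class at most `κ + 1` act on the vertex set `V` with at
most `k` orbits (the orbits of `y 0, ..., y (k-1)` cover `V`) and preserve the capacities `c`, and
let every vertex have at most `M` neighbours.  Then the uniform sparsest cut value is at most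
`2000 * 4 ^ κ * k * (k + log (1 + min (M, e, log |V|)))` times the Goemans–Linial value, `e` the
exponent of the abelianization of `G`. -/
theorem result (V : Type) [Fintype V] [DecidableEq V] [Nontrivial V]
    (G : Type) [Group G] [Fintype G] [MulAction G V]
    (κ : ℕ) (hnil : Group.IsNilpotent G) (hclass : Group.nilpotencyClass G ≤ κ + 1)
    (c : V → V → ℝ) (hnonneg : ∀ u v, 0 ≤ c u v) (hsymm : ∀ u v, c u v = c v u)
    (_hdiag : ∀ u, c u u = 0) (hinv : ∀ (g : G) (u v : V), c (g • u) (g • v) = c u v)
    (k : ℕ) (y : Fin k → V) (hy : ∀ v, ∃ (i : Fin k) (g : G), v = g • y i)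
    (M : ℕ) (hM : ∀ u, (univ.filter fun v => c u v ≠ 0).card ≤ M) :
    phi c ≤ 2000 * 4 ^ κ * k * (k + Real.log (1 + min (M : ℝ)
      (min (Monoid.exponent (Abelianization G) : ℝ) (Real.log (Fintype.card V))))) *
        glValue c :=
  Vale.Agent.P318.H794.finalM
    (Subgroup.lowerCentralSeries_eq_bot_iff_nilpotencyClass_le.2 hclass)
    hnonneg hsymm hinv y hy hM

end Vale.Agent.Results.P318.NilpotentFewOrbits
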