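import Vale.Agent.P318.H724.ArvMain

/-!
# The gap of the metric and Goemans-Linial relaxations for spread capacities

`phi`, `glValue`, `IsNegTypeSemimetric` and `cutCap` are defined in
`Vale.Agent.P318.H867.Defs`.
-/

open Finset

namespace Vale.Agent.Results.P318.SpreadCapacities

open Vale.Agent.P318.H867

/-- Let `m ≥ 1` and suppose that for all vertices `i` outside a set `E` of at most `|V| / 32`
vertices, every set `S` which carries at least three quarters of the (positive) degree of `i` has
at least `m` elements.  Then the Goemans-Linial relaxation satisfies the sparsest cut inequality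
with the loss `4 * 10 ^ 13 * sqrt (1 + log_2 (|V| / m))`, and every semimetric satisfies it with
the loss `16384 (1 + log_2 (|V| / m))`. -/
theorem result (V : Type) [Fintype V] [DecidableEq V] [Nontrivial V]
    (c : V → V → ℝ) (hnonneg : ∀ u v, 0 ≤ c u v) (hsymm : ∀ u v, c u v = c v u)
    (_hdiag : ∀ u, c u u = 0) (m : ℕ) (hm : 1 ≤ m)
    (E : Finset V) (hE : 32 * E.card ≤ Fintype.card V)
    (hspread : ∀ i ∉ E, ∀ S : Finset V, 0 < ∑ j, c i j →
      3 * ∑ j, c i j ≤ 4 * ∑ j ∈ S, c i j → m ≤ S.card) :
    phi c ≤ 40000000000000 * Real.sqrt (1 + (Nat.log 2 (Fintype.card V / m) : ℝ)) *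
      glValue c ∧
    ∀ d : V → V → ℝ, (∀ i, d i i = 0) → (∀ i j, d i j = d j i) →
      (∀ i j k, d i k ≤ d i j + d j k) →
      phi c * ∑ i, ∑ j, d i j ≤
        16384 * (1 + (Nat.log 2 (Fintype.card V / m) : ℝ)) * ∑ i, ∑ j, c i j * d i j := by
  refine ⟨?_, fun d hd hs ht => ?_⟩
  · exact Vale.Agent.P318.H724.phi_le_gl' (by
      apply mul_pos (by norm_num)
      apply Real.sqrt_pos.2
      positivity) fun d hneg =>
      Vale.Agent.P318.H724.arv_main hnonneg hsymm hm E hE hspread hneg
  · rw [add_comm (1 : ℝ)]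
    refine Vale.Agent.P318.H724.mainB hnonneg hsymm hm E hE hspread (fun x y => ?_) hs ht
    have h1 := ht x y x
    rw [hd, hs y x] at h1
    linarith

end Vale.Agent.Results.P318.SpreadCapacities
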