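import Vale.Agent.P318.H724.WalkMain

/-!
# The gap of the relaxations for capacities whose lazy random walk spreads

`phi`, `glValue`, `IsNegTypeSemimetric` and `cutCap` are defined in
`Vale.Agent.P318.H867.Defs`, `lazyWalk` in `Vale.Agent.P318.H724.WalkDef`.
-/

open Finset

namespace Vale.Agent.Results.P318.WalkSpread

open Vale.Agent.P318.H867 Vale.Agent.P318.H724

/-- Let all degrees be at most `D`, and let `W` be the lazy walk `1 - L / (2 D)`.  Suppose that for
all starting points `i` outside a set `E` of at most `|V| / 32` vertices, every set `S` which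
contains the walk after `2 s` steps with probability at least `3 / 4` has at least `m` elements.
Then the Goemans-Linial relaxation has gap at most
`8 * 10 ^ 13 * s * sqrt (1 + log_2 (|V| / m))`, and every semimetric satisfies the sparsest cut
inequality with the loss `32768 s (1 + log_2 (|V| / m))`. -/
theorem result (V : Type) [Fintype V] [DecidableEq V] [Nontrivial V]
    (c : V → V → ℝ) (hnonneg : ∀ u v, 0 ≤ c u v) (hsymm : ∀ u v, c u v = c v u)
    (hdiag : ∀ u, c u u = 0) (D : ℝ) (hD : 0 < D) (hdeg : ∀ i, ∑ j, c i j ≤ D)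
    (s : ℕ) (hs : 1 ≤ s) (m : ℕ) (hm : 1 ≤ m)
    (E : Finset V) (hE : 32 * E.card ≤ Fintype.card V)
    (hspread : ∀ i ∉ E, ∀ S : Finset V,
      3 ≤ 4 * ∑ j ∈ S, (lazyWalk c D ^ (2 * s)) i j → m ≤ S.card) :
    phi c ≤ 80000000000000 * s * Real.sqrt (1 + (Nat.log 2 (Fintype.card V / m) : ℝ)) *
      glValue c ∧
    ∀ d : V → V → ℝ, (∀ i, d i i = 0) → (∀ i j, d i j = d j i) →
      (∀ i j k, d i k ≤ d i j + d j k) →
      phi c * ∑ i, ∑ j, d i j ≤
        32768 * s * (1 + (Nat.log 2 (Fintype.card V / m) : ℝ)) * ∑ i, ∑ j, c i j * d i j := by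
  have hs0 : (0 : ℝ) < s := by exact_mod_cast hs
  refine ⟨?_, fun d hd hds ht => ?_⟩
  · exact phi_le_gl' (by
      apply mul_pos (by positivity)
      apply Real.sqrt_pos.2
      positivity) fun d hneg =>
      walk_gl hnonneg hsymm hdiag hD hdeg hs hm E hE hspread hneg
  · rw [add_comm (1 : ℝ)]
    refine walk_metric hnonneg hsymm hdiag hD hdeg hs hm E hE hspread (fun x y => ?_) hd hds ht
    have h1 := ht x y x
    rw [hd, hds y x] at h1
    linarith

end Vale.Agent.Results.P318.WalkSpread
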